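import Mathlib
import Vale.Agent.Lib.P047.DegFour

open Finset BigOperators

namespace Vale.Agent.Results.P047.DegreeFour

open Vale.Agent.Lib.P047

/-- the extremal function on seven variables: it takes the value `-1` exactly on the seven
pairwise disjoint subcubes `x k = 1, x (k+4) = x (k+5) = x (k+6) = -1` (indices mod 7) -/
def T7 (x : Fin 7 → ℤˣ) : ℤˣ :=
  if ∃ k : Fin 7, x k = 1 ∧ x (k + 4) = -1 ∧ x (k + 5) = -1 ∧ x (k + 6) = -1 then -1 else 1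

lemma T7_lin : ∀ i : Fin 7, ∑ x : Fin 7 → ℤˣ, ((T7 x : ℤˣ) : ℤ) * ((x i : ℤˣ) : ℤ) = 32 := by
  decide +kernel

lemma T7_deg : ∀ S : Finset (Fin 7), 4 < S.card →
    ∑ x : Fin 7 → ℤˣ, ((T7 x : ℤˣ) : ℤ) * ∏ i ∈ S, ((x i : ℤˣ) : ℤ) = 0 := by
  decide +kernel

/-- `M(4) = 7/4`: every Boolean function `f : {-1,1}^n → {-1,1}` of degree at most `4` satisfies
`∑ i, |f^({i})| ≤ 7/4`, and a Boolean function of degree at most `4` on seven variables attains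
`∑ i, f^({i}) = 7/4`. -/
theorem result :
    (∀ (n : ℕ) (f : (Fin n → ℤˣ) → ℤˣ),
      (∀ S : Finset (Fin n), 4 < S.card →
        (∑ x, ((f x : ℤ) : ℝ) * ∏ i ∈ S, ((x i : ℤ) : ℝ)) / 2 ^ n = 0) →
      ∑ i, |(∑ x, ((f x : ℤ) : ℝ) * ((x i : ℤ) : ℝ)) / 2 ^ n| ≤ 7 / 4) ∧
    (∃ f : (Fin 7 → ℤˣ) → ℤˣ,
      (∀ S : Finset (Fin 7), 4 < S.card →
        (∑ x, ((f x : ℤ) : ℝ) * ∏ i ∈ S, ((x i : ℤ) : ℝ)) / 2 ^ 7 = 0) ∧
      ∑ i, (∑ x, ((f x : ℤ) : ℝ) * ((x i : ℤ) : ℝ)) / 2 ^ 7 = 7 / 4) := by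
  constructor
  · intro n f hdeg
    have h := level_one_deg_four f (by
      intro S hS
      rw [fc_fin]
      exact hdeg S hS)
    simp only [fc_fin_single] at h
    exact h
  · refine ⟨T7, ?_, ?_⟩
    · intro S hS
      have h := T7_deg S hS
      have h2 : (∑ x : Fin 7 → ℤˣ, ((T7 x : ℤ) : ℝ) * ∏ i ∈ S, ((x i : ℤ) : ℝ))
          = ((∑ x : Fin 7 → ℤˣ, ((T7 x : ℤˣ) : ℤ) * ∏ i ∈ S, ((x i : ℤˣ) : ℤ) : ℤ) : ℝ) := by
        push_cast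
        rfl
      rw [h2, h]
      simp
    · have h2 : ∀ i : Fin 7, (∑ x : Fin 7 → ℤˣ, ((T7 x : ℤ) : ℝ) * ((x i : ℤ) : ℝ)) = 32 := by
        intro i
        have h := T7_lin i
        have h3 : (∑ x : Fin 7 → ℤˣ, ((T7 x : ℤ) : ℝ) * ((x i : ℤ) : ℝ))
            = ((∑ x : Fin 7 → ℤˣ, ((T7 x : ℤˣ) : ℤ) * ((x i : ℤˣ) : ℤ) : ℤ) : ℝ) := by
          push_cast
          rfl
        rw [h3, h]
        norm_num
      simp only [h2]
      simp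
      norm_num

end Vale.Agent.Results.P047.DegreeFour
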