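import Mathlib
import Vale.Agent.Lib.P047.Fourier
import Vale.Agent.Lib.P047.Amplify2

open Finset BigOperators

namespace Vale.Agent.Results.P047.PowerLaw

open Vale.Agent.Lib.P047

/-- Rigidity of the growth of `M(d)`: a bound `C * d ^ θ` valid for all Boolean functions of degree at
most `d` (all `d`) self-improves to the bound `d ^ θ` with constant one, for every degree bound `d`
(and with `|E f|` added when `d` is odd).  For `θ = 1/2`: the weak form of the conjecture implies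
the strong form, for all degrees. -/
theorem result :
    (∀ θ : ℝ, 0 ≤ θ →
      (∃ C : ℝ, ∀ (n d : ℕ) (f : (Fin n → ℤˣ) → ℤˣ),
        (∀ S : Finset (Fin n), d < S.card →
          (∑ x, ((f x : ℤ) : ℝ) * ∏ i ∈ S, ((x i : ℤ) : ℝ)) / 2 ^ n = 0) →
        ∑ i, (∑ x, ((f x : ℤ) : ℝ) * ((x i : ℤ) : ℝ)) / 2 ^ n ≤ C * (d : ℝ) ^ θ) →
      (∀ (n d : ℕ) (f : (Fin n → ℤˣ) → ℤˣ),
        (∀ S : Finset (Fin n), d < S.card →
          (∑ x, ((f x : ℤ) : ℝ) * ∏ i ∈ S, ((x i : ℤ) : ℝ)) / 2 ^ n = 0) →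
        ∑ i, (∑ x, ((f x : ℤ) : ℝ) * ((x i : ℤ) : ℝ)) / 2 ^ n ≤ (d : ℝ) ^ θ) ∧
      (∀ (n d : ℕ) (f : (Fin n → ℤˣ) → ℤˣ), Odd d →
        (∀ S : Finset (Fin n), d < S.card →
          (∑ x, ((f x : ℤ) : ℝ) * ∏ i ∈ S, ((x i : ℤ) : ℝ)) / 2 ^ n = 0) →
        ∑ i, (∑ x, ((f x : ℤ) : ℝ) * ((x i : ℤ) : ℝ)) / 2 ^ n + |(∑ x, ((f x : ℤ) : ℝ)) / 2 ^ n|
          ≤ (d : ℝ) ^ θ)) ∧
    ((∃ C : ℝ, ∀ (n d : ℕ) (f : (Fin n → ℤˣ) → ℤˣ),
        (∀ S : Finset (Fin n), d < S.card →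
          (∑ x, ((f x : ℤ) : ℝ) * ∏ i ∈ S, ((x i : ℤ) : ℝ)) / 2 ^ n = 0) →
        ∑ i, (∑ x, ((f x : ℤ) : ℝ) * ((x i : ℤ) : ℝ)) / 2 ^ n ≤ C * Real.sqrt d) →
      ∀ (n d : ℕ) (f : (Fin n → ℤˣ) → ℤˣ),
        (∀ S : Finset (Fin n), d < S.card →
          (∑ x, ((f x : ℤ) : ℝ) * ∏ i ∈ S, ((x i : ℤ) : ℝ)) / 2 ^ n = 0) →
        ∑ i, (∑ x, ((f x : ℤ) : ℝ) * ((x i : ℤ) : ℝ)) / 2 ^ n ≤ Real.sqrt d) := by
  have main : ∀ θ : ℝ, 0 ≤ θ →
      (∃ C : ℝ, ∀ (n d : ℕ) (f : (Fin n → ℤˣ) → ℤˣ),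
        (∀ S : Finset (Fin n), d < S.card →
          (∑ x, ((f x : ℤ) : ℝ) * ∏ i ∈ S, ((x i : ℤ) : ℝ)) / 2 ^ n = 0) →
        ∑ i, (∑ x, ((f x : ℤ) : ℝ) * ((x i : ℤ) : ℝ)) / 2 ^ n ≤ C * (d : ℝ) ^ θ) →
      (∀ (n d : ℕ) (f : (Fin n → ℤˣ) → ℤˣ),
        (∀ S : Finset (Fin n), d < S.card →
          (∑ x, ((f x : ℤ) : ℝ) * ∏ i ∈ S, ((x i : ℤ) : ℝ)) / 2 ^ n = 0) →
        ∑ i, (∑ x, ((f x : ℤ) : ℝ) * ((x i : ℤ) : ℝ)) / 2 ^ n ≤ (d : ℝ) ^ θ) ∧
      (∀ (n d : ℕ) (f : (Fin n → ℤˣ) → ℤˣ), Odd d →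
        (∀ S : Finset (Fin n), d < S.card →
          (∑ x, ((f x : ℤ) : ℝ) * ∏ i ∈ S, ((x i : ℤ) : ℝ)) / 2 ^ n = 0) →
        ∑ i, (∑ x, ((f x : ℤ) : ℝ) * ((x i : ℤ) : ℝ)) / 2 ^ n + |(∑ x, ((f x : ℤ) : ℝ)) / 2 ^ n|
          ≤ (d : ℝ) ^ θ) := by
    intro θ hθ hweak
    obtain ⟨C, hC⟩ := hweak
    have hpowθ : ∀ (d k : ℕ), (((d ^ k : ℕ) : ℝ)) ^ θ = ((d : ℝ) ^ θ) ^ k := by
      intro d k
      push_cast
      rw [← Real.rpow_natCast, ← Real.rpow_natCast, ← Real.rpow_mul (by positivity),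
        ← Real.rpow_mul (by positivity), mul_comm]
    constructor
    · intro n d f hdeg
      have h1 : ∀ S, d < S.card → fc f S = 0 := by
        intro S hS
        rw [fc_fin]
        exact hdeg S hS
      simp_rw [← fc_fin_single]
      rcases Nat.eq_zero_or_pos d with hd0 | hdpos
      · have hz : ∑ i, fc f {i} = 0 := by
          apply Finset.sum_eq_zero
          intro i _
          apply h1
          rw [hd0]
          simp
        rw [hz]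
        positivity
      · have hdR : (1 : ℝ) ≤ d := by exact_mod_cast hdpos
        have hy : 0 < (d : ℝ) ^ θ := by positivity
        rcases lt_or_ge (∑ i, fc f {i}) 0 with hneg | hL
        · linarith
        · apply le_of_pow_le_poly _ _ (max C 0) ⌈θ⌉₊ hy
          intro k
          obtain ⟨N, F, hF1, hF2⟩ := amplify2 n d hdpos f h1 hL k
          have h2 := hC N ((k + 1) * d ^ k) F (by
            intro S hS
            rw [← fc_fin]
            exact hF1 S hS)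
          simp_rw [← fc_fin_single] at h2
          have h3 : ((((k + 1) * d ^ k : ℕ) : ℝ)) ^ θ = ((k : ℝ) + 1) ^ θ * ((d : ℝ) ^ θ) ^ k := by
            rw [Nat.cast_mul, Real.mul_rpow (by positivity) (by positivity), hpowθ]
            push_cast
            ring
          rw [h3] at h2
          have h4 : ((k : ℝ) + 1) ^ θ ≤ ((k : ℝ) + 1) ^ ⌈θ⌉₊ := by
            rw [← Real.rpow_natCast]
            apply Real.rpow_le_rpow_of_exponent_le
            · have : (0 : ℝ) ≤ k := Nat.cast_nonneg k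
              linarith
            · exact Nat.le_ceil θ
          have h5 : 0 ≤ ((d : ℝ) ^ θ) ^ k := by positivity
          have h6 : 0 ≤ ((k : ℝ) + 1) ^ θ := by positivity
          calc (∑ i, fc f {i}) ^ k ≤ ∑ i, fc F {i} := hF2
            _ ≤ C * (((k : ℝ) + 1) ^ θ * ((d : ℝ) ^ θ) ^ k) := h2
            _ ≤ max C 0 * (((k : ℝ) + 1) ^ θ * ((d : ℝ) ^ θ) ^ k) :=
                mul_le_mul_of_nonneg_right (le_max_left _ _) (by positivity)
            _ ≤ max C 0 * (((k : ℝ) + 1) ^ ⌈θ⌉₊ * ((d : ℝ) ^ θ) ^ k) := by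
                apply mul_le_mul_of_nonneg_left _ (le_max_right _ _)
                exact mul_le_mul_of_nonneg_right h4 h5
            _ = max C 0 * ((k : ℝ) + 1) ^ ⌈θ⌉₊ * ((d : ℝ) ^ θ) ^ k := by ring
    · intro n d f hd hdeg
      have h1 : ∀ S, d < S.card → fc f S = 0 := by
        intro S hS
        rw [fc_fin]
        exact hdeg S hS
      simp_rw [← fc_fin_single, ← fc_fin_empty]
      have hdpos : 1 ≤ d := hd.pos
      have hdR : (1 : ℝ) ≤ d := by exact_mod_cast hdpos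
      have hy : 0 < (d : ℝ) ^ θ := by positivity
      apply le_of_pow_le_poly _ _ C 0 hy
      intro k
      obtain ⟨N, F, hF1, hF2⟩ := amplify n d hd f h1 k
      have h2 := hC N (d ^ k) F (by
        intro S hS
        rw [← fc_fin]
        exact hF1 S hS)
      simp_rw [← fc_fin_single] at h2
      rw [hF2, hpowθ] at h2
      simpa using h2
  refine ⟨main, ?_⟩
  intro hweak n d f hdeg
  have h := (main (1 / 2) (by norm_num) (by
    obtain ⟨C, hC⟩ := hweak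
    refine ⟨C, ?_⟩
    intro n d f hdeg
    rw [← Real.sqrt_eq_rpow]
    exact hC n d f hdeg)).1 n d f hdeg
  rw [← Real.sqrt_eq_rpow] at h
  exact h

end Vale.Agent.Results.P047.PowerLaw
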