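import Mathlib
import Vale.Agent.Lib.P047.UpperMain

open Finset BigOperators

namespace Vale.Agent.Results.P047.UpperConst

open Vale.Agent.Lib.P047 Vale.Agent.Lib.P047.Biased

/-- Every Boolean function `f : {-1,1}^n → {-1,1}` of degree at most `d`, `d ≥ 2`, satisfies
`∑ i, |f^({i})| ≤ (43/44) d`; in particular `∑ i, f^({i}) ≤ (43/44) d`, so `M(d) ≤ (43/44) d`. -/
theorem result (n d : ℕ) (hd : 2 ≤ d) (f : (Fin n → ℤˣ) → ℤˣ)
    (hdeg : ∀ S : Finset (Fin n), d < S.card →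
      (∑ x, ((f x : ℤ) : ℝ) * ∏ i ∈ S, ((x i : ℤ) : ℝ)) / 2 ^ n = 0) :
    ∑ i, |(∑ x, ((f x : ℤ) : ℝ) * ((x i : ℤ) : ℝ)) / 2 ^ n| ≤ (43 / 44) * d ∧
    ∑ i, (∑ x, ((f x : ℤ) : ℝ) * ((x i : ℤ) : ℝ)) / 2 ^ n ≤ (43 / 44) * d := by
  have hφ : ∀ x, (fun x => ((f x : ℤ) : ℝ)) x = 1 ∨ (fun x => ((f x : ℤ) : ℝ)) x = -1 := by
    intro x
    rcases Int.units_eq_one_or (f x) with h | h <;> simp [h]
  have hfc : ∀ S : Finset (Fin n), fcoef (fun x => ((f x : ℤ) : ℝ)) S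
      = (∑ x, ((f x : ℤ) : ℝ) * ∏ i ∈ S, ((x i : ℤ) : ℝ)) / 2 ^ n := by
    intro S
    unfold fcoef sg
    rw [Fintype.card_fin]
  have h1 := level_one_abs_le d hd (fun x => ((f x : ℤ) : ℝ)) hφ (by
    intro S hS
    rw [hfc]
    exact hdeg S hS)
  simp only [hfc, Finset.prod_singleton] at h1
  refine ⟨h1, le_trans (Finset.sum_le_sum fun i _ => le_abs_self _) h1⟩

end Vale.Agent.Results.P047.UpperConst
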