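import Vale.Agent.Lib.P047.Conical
import Vale.Agent.Lib.P047.TwoSided
import Vale.Agent.Lib.P047.DegFive
import Vale.Agent.Results.P047.DegreeFour
import Vale.Agent.Results.P047.PowerLaw
import Vale.Agent.Results.P047.UpperConst

open Finset BigOperators

/-!
P047 (Gopalan-Servedio): the results on `M(d)` in one statement.
The cube is `Fin n → ℤˣ`, the Fourier coefficient of `f` at `S` is written out as
`(∑ x, f x * ∏ i ∈ S, x i) / 2 ^ n`, and `deg f ≤ d` says that it vanishes for `d < S.card`.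
-/

namespace Vale.Agent.Results.P047.AllResults

/-- (1) `M(4) = 7/4`; (2) `M(5) ≥ 17/8`; (3) `M(d) ≤ (43/44) d` for `d ≥ 2`; (4) a bound
`M(d) ≤ C d ^ θ` for all `d` self-improves to `M(d) ≤ d ^ θ`, in particular the weak form of the
conjecture implies the strong form; (5) the bound `(4/e) √d` for functions with a conical junta
representation of width `d`; (6) the bound `√(average codimension)`, hence `√d`, for functions that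
are constant on the pieces of a fractional subcube partition. -/
theorem result :
    ((∀ (n : ℕ) (f : (Fin n → ℤˣ) → ℤˣ),
      (∀ S : Finset (Fin n), 4 < S.card →
        (∑ x, ((f x : ℤ) : ℝ) * ∏ i ∈ S, ((x i : ℤ) : ℝ)) / 2 ^ n = 0) →
      ∑ i, |(∑ x, ((f x : ℤ) : ℝ) * ((x i : ℤ) : ℝ)) / 2 ^ n| ≤ 7 / 4) ∧
    (∃ f : (Fin 7 → ℤˣ) → ℤˣ,
      (∀ S : Finset (Fin 7), 4 < S.card →
        (∑ x, ((f x : ℤ) : ℝ) * ∏ i ∈ S, ((x i : ℤ) : ℝ)) / 2 ^ 7 = 0) ∧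
      ∑ i, (∑ x, ((f x : ℤ) : ℝ) * ((x i : ℤ) : ℝ)) / 2 ^ 7 = 7 / 4)) ∧
    (∃ (n : ℕ) (f : (Fin n → ℤˣ) → ℤˣ),
      (∀ S : Finset (Fin n), 5 < S.card →
        (∑ x, ((f x : ℤ) : ℝ) * ∏ i ∈ S, ((x i : ℤ) : ℝ)) / 2 ^ n = 0) ∧
      ∑ i, (∑ x, ((f x : ℤ) : ℝ) * ((x i : ℤ) : ℝ)) / 2 ^ n = 17 / 8) ∧
    (∀ (n d : ℕ), 2 ≤ d → ∀ f : (Fin n → ℤˣ) → ℤˣ,
      (∀ S : Finset (Fin n), d < S.card →
        (∑ x, ((f x : ℤ) : ℝ) * ∏ i ∈ S, ((x i : ℤ) : ℝ)) / 2 ^ n = 0) →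
      ∑ i, |(∑ x, ((f x : ℤ) : ℝ) * ((x i : ℤ) : ℝ)) / 2 ^ n| ≤ (43 / 44) * d) ∧
    ((∀ θ : ℝ, 0 ≤ θ →
      (∃ C : ℝ, ∀ (n d : ℕ) (f : (Fin n → ℤˣ) → ℤˣ),
        (∀ S : Finset (Fin n), d < S.card →
          (∑ x, ((f x : ℤ) : ℝ) * ∏ i ∈ S, ((x i : ℤ) : ℝ)) / 2 ^ n = 0) →
        ∑ i, (∑ x, ((f x : ℤ) : ℝ) * ((x i : ℤ) : ℝ)) / 2 ^ n ≤ C * (d : ℝ) ^ θ) →
      (∀ (n d : ℕ) (f : (Fin n → ℤˣ) → ℤˣ),
        (∀ S : Finset (Fin n), d < S.card →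
          (∑ x, ((f x : ℤ) : ℝ) * ∏ i ∈ S, ((x i : ℤ) : ℝ)) / 2 ^ n = 0) →
        ∑ i, (∑ x, ((f x : ℤ) : ℝ) * ((x i : ℤ) : ℝ)) / 2 ^ n ≤ (d : ℝ) ^ θ) ∧
      (∀ (n d : ℕ) (f : (Fin n → ℤˣ) → ℤˣ), Odd d →
        (∀ S : Finset (Fin n), d < S.card →
          (∑ x, ((f x : ℤ) : ℝ) * ∏ i ∈ S, ((x i : ℤ) : ℝ)) / 2 ^ n = 0) →
        ∑ i, (∑ x, ((f x : ℤ) : ℝ) * ((x i : ℤ) : ℝ)) / 2 ^ n + |(∑ x, ((f x : ℤ) : ℝ)) / 2 ^ n|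
          ≤ (d : ℝ) ^ θ)) ∧
    ((∃ C : ℝ, ∀ (n d : ℕ) (f : (Fin n → ℤˣ) → ℤˣ),
        (∀ S : Finset (Fin n), d < S.card →
          (∑ x, ((f x : ℤ) : ℝ) * ∏ i ∈ S, ((x i : ℤ) : ℝ)) / 2 ^ n = 0) →
        ∑ i, (∑ x, ((f x : ℤ) : ℝ) * ((x i : ℤ) : ℝ)) / 2 ^ n ≤ C * Real.sqrt d) →
      ∀ (n d : ℕ) (f : (Fin n → ℤˣ) → ℤˣ),
        (∀ S : Finset (Fin n), d < S.card →
          (∑ x, ((f x : ℤ) : ℝ) * ∏ i ∈ S, ((x i : ℤ) : ℝ)) / 2 ^ n = 0) →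
        ∑ i, (∑ x, ((f x : ℤ) : ℝ) * ((x i : ℤ) : ℝ)) / 2 ^ n ≤ Real.sqrt d)) ∧
    (∀ (n d : ℕ), 1 ≤ d → ∀ (f : (Fin n → ℤˣ) → ℤˣ)
      (m : ℕ) (P N : Fin m → Finset (Fin n)) (w : Fin m → ℝ),
      (∀ j, 0 ≤ w j) → (∀ j, Disjoint (P j) (N j)) → (∀ j, (P j).card + (N j).card ≤ d) →
      (∀ x, (if f x = 1 then (1:ℝ) else 0) =
        ∑ j, w j * (if ((∀ i ∈ P j, x i = 1) ∧ (∀ i ∈ N j, x i = -1)) then (1:ℝ) else 0)) →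
      (∀ S : Finset (Fin n), d < S.card →
        (∑ x, ((f x : ℤ) : ℝ) * ∏ i ∈ S, ((x i : ℤ) : ℝ)) / 2 ^ n = 0) ∧
      ∑ i, (∑ x, ((f x : ℤ) : ℝ) * ((x i : ℤ) : ℝ)) / 2 ^ n ≤ (4 / Real.exp 1) * Real.sqrt d) ∧
    (∀ (n : ℕ) (f : (Fin n → ℤˣ) → ℤˣ)
      (m : ℕ) (P N : Fin m → Finset (Fin n)) (w : Fin m → ℝ) (b : Fin m → ℤˣ),
      (∀ j, 0 ≤ w j) → (∀ j, Disjoint (P j) (N j)) →
      (∀ x : Fin n → ℤˣ,
        ∑ j, w j * (if ((∀ i ∈ P j, x i = 1) ∧ (∀ i ∈ N j, x i = -1)) then (1:ℝ) else 0) = 1) →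
      (∀ j, 0 < w j → ∀ x : Fin n → ℤˣ,
        ((∀ i ∈ P j, x i = 1) ∧ (∀ i ∈ N j, x i = -1)) → f x = b j) →
      (∑ i, (∑ x, ((f x : ℤ) : ℝ) * ((x i : ℤ) : ℝ)) / 2 ^ n) ^ 2
        ≤ ∑ j, w j * (((P j).card + (N j).card : ℕ) : ℝ) / 2 ^ ((P j).card + (N j).card) ∧
      ∀ d : ℕ, (∀ j, (P j).card + (N j).card ≤ d) →
        ∑ i, (∑ x, ((f x : ℤ) : ℝ) * ((x i : ℤ) : ℝ)) / 2 ^ n ≤ Real.sqrt d) := by
  refine ⟨Vale.Agent.Results.P047.DegreeFour.result, ?_,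
    fun n d hd f hdeg => (Vale.Agent.Results.P047.UpperConst.result n d hd f hdeg).1,
    Vale.Agent.Results.P047.PowerLaw.result,
    fun n d hd f m P N w hw hPN hwidth hrep =>
      Vale.Agent.Lib.P047.Conical.conical_junta n d hd f (Fin m) P N w hw hPN hwidth hrep,
    fun n f m P N w b hw hPN hone hval =>
      ⟨Vale.Agent.Lib.P047.TwoSided.two_sided n f (Fin m) P N w b hw hPN hone hval,
        fun d hwidth =>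
          Vale.Agent.Lib.P047.TwoSided.two_sided_sqrt n d f (Fin m) P N w b hw hPN hwidth hone hval⟩⟩
  obtain ⟨N, F, h1, h2⟩ := Vale.Agent.Lib.P047.exists_deg_five
  refine ⟨N, F, ?_, ?_⟩
  · intro S hS
    rw [← Vale.Agent.Lib.P047.fc_fin]
    exact h1 S hS
  · simp only [Vale.Agent.Lib.P047.fc_fin_single] at h2
    exact h2

end Vale.Agent.Results.P047.AllResults
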