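import Vale.Agent.Results.P047.AllResults
import Vale.Agent.Lib.P047.Low.Main
import Vale.Agent.Lib.P047.Mono.Main
import Vale.Agent.Lib.P047.Mono.SmallMain

open Finset BigOperators

/-!
P047 (Gopalan-Servedio): the results on `M(d)` in one statement, with the lower bound for all degrees.
The cube is `Fin n → ℤˣ`, the Fourier coefficient of `f` at `S` is written out as
`(∑ x, f x * ∏ i ∈ S, x i) / 2 ^ n`, `deg f ≤ d` says that it vanishes for `d < S.card`, and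
`B_d` is written out as `(∑ x : Fin d → ℤˣ, |∑ i, x i|) / 2 ^ d`.
-/

namespace Vale.Agent.Results.P047.AllResultsB

/-- (1) `M(4) = 7/4`; (2) `M(5) ≥ 17/8`; (3) `M(d) > B_d` for every `d ≥ 4`;
(4) `M(d) ≤ (43/44) d` for `d ≥ 2`; (5) the bound `(d + 3) / π` for monotone functions of degree
at most `d`, and the bounds `3/2`, `9/4`, `45/16` for monotone functions of degree at most
`4`, `6`, `8`; (6) a bound `M(d) ≤ C d ^ θ` for all `d` self-improves to `M(d) ≤ d ^ θ`, in particular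
the weak form of the conjecture implies the strong form; (7) the bound `(4/e) √d` for functions with
a conical junta representation of width `d`; (8) the bound `√(average codimension)`, hence `√d`, for
functions that are constant on the pieces of a fractional subcube partition. -/
theorem result :
    ((∀ (n : ℕ) (f : (Fin n → ℤˣ) → ℤˣ),
      (∀ S : Finset (Fin n), 4 < S.card →
        (∑ x, ((f x : ℤ) : ℝ) * ∏ i ∈ S, ((x i : ℤ) : ℝ)) / 2 ^ n = 0) →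
      ∑ i, |(∑ x, ((f x : ℤ) : ℝ) * ((x i : ℤ) : ℝ)) / 2 ^ n| ≤ 7 / 4) ∧
    (∃ f : (Fin 7 → ℤˣ) → ℤˣ,
      (∀ S : Finset (Fin 7), 4 < S.card →
        (∑ x, ((f x : ℤ) : ℝ) * ∏ i ∈ S, ((x i : ℤ) : ℝ)) / 2 ^ 7 = 0) ∧
      ∑ i, (∑ x, ((f x : ℤ) : ℝ) * ((x i : ℤ) : ℝ)) / 2 ^ 7 = 7 / 4)) ∧
    (∃ (n : ℕ) (f : (Fin n → ℤˣ) → ℤˣ),
      (∀ S : Finset (Fin n), 5 < S.card →
        (∑ x, ((f x : ℤ) : ℝ) * ∏ i ∈ S, ((x i : ℤ) : ℝ)) / 2 ^ n = 0) ∧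
      ∑ i, (∑ x, ((f x : ℤ) : ℝ) * ((x i : ℤ) : ℝ)) / 2 ^ n = 17 / 8) ∧
    (∀ d : ℕ, 4 ≤ d → ∃ (n : ℕ) (f : (Fin n → ℤˣ) → ℤˣ),
      (∀ S : Finset (Fin n), d < S.card →
        (∑ x, ((f x : ℤ) : ℝ) * ∏ i ∈ S, ((x i : ℤ) : ℝ)) / 2 ^ n = 0) ∧
      (∑ x : Fin d → ℤˣ, |∑ i, ((x i : ℤ) : ℝ)|) / 2 ^ d
        < ∑ i, (∑ x, ((f x : ℤ) : ℝ) * ((x i : ℤ) : ℝ)) / 2 ^ n) ∧
    (∀ (n d : ℕ), 2 ≤ d → ∀ f : (Fin n → ℤˣ) → ℤˣ,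
      (∀ S : Finset (Fin n), d < S.card →
        (∑ x, ((f x : ℤ) : ℝ) * ∏ i ∈ S, ((x i : ℤ) : ℝ)) / 2 ^ n = 0) →
      ∑ i, |(∑ x, ((f x : ℤ) : ℝ) * ((x i : ℤ) : ℝ)) / 2 ^ n| ≤ (43 / 44) * d) ∧
    (∀ (n d : ℕ) (f : (Fin n → ℤˣ) → ℤˣ),
      (∀ x y : Fin n → ℤˣ, (∀ i, (x i : ℤ) ≤ (y i : ℤ)) → (f x : ℤ) ≤ (f y : ℤ)) →
      (∀ S : Finset (Fin n), d < S.card →
        (∑ x, ((f x : ℤ) : ℝ) * ∏ i ∈ S, ((x i : ℤ) : ℝ)) / 2 ^ n = 0) →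
      ∑ i, (∑ x, ((f x : ℤ) : ℝ) * ((x i : ℤ) : ℝ)) / 2 ^ n ≤ (d + 3) / Real.pi) ∧
    (∀ (n : ℕ) (f : (Fin n → ℤˣ) → ℤˣ),
      (∀ x y : Fin n → ℤˣ, (∀ i, (x i : ℤ) ≤ (y i : ℤ)) → (f x : ℤ) ≤ (f y : ℤ)) →
      ((∀ S : Finset (Fin n), 4 < S.card →
          (∑ x, ((f x : ℤ) : ℝ) * ∏ i ∈ S, ((x i : ℤ) : ℝ)) / 2 ^ n = 0) →
        ∑ i, (∑ x, ((f x : ℤ) : ℝ) * ((x i : ℤ) : ℝ)) / 2 ^ n ≤ 3 / 2) ∧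
      ((∀ S : Finset (Fin n), 6 < S.card →
          (∑ x, ((f x : ℤ) : ℝ) * ∏ i ∈ S, ((x i : ℤ) : ℝ)) / 2 ^ n = 0) →
        ∑ i, (∑ x, ((f x : ℤ) : ℝ) * ((x i : ℤ) : ℝ)) / 2 ^ n ≤ 9 / 4) ∧
      ((∀ S : Finset (Fin n), 8 < S.card →
          (∑ x, ((f x : ℤ) : ℝ) * ∏ i ∈ S, ((x i : ℤ) : ℝ)) / 2 ^ n = 0) →
        ∑ i, (∑ x, ((f x : ℤ) : ℝ) * ((x i : ℤ) : ℝ)) / 2 ^ n ≤ 45 / 16)) ∧
    ((∀ θ : ℝ, 0 ≤ θ →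
      (∃ C : ℝ, ∀ (n d : ℕ) (f : (Fin n → ℤˣ) → ℤˣ),
        (∀ S : Finset (Fin n), d < S.card →
          (∑ x, ((f x : ℤ) : ℝ) * ∏ i ∈ S, ((x i : ℤ) : ℝ)) / 2 ^ n = 0) →
        ∑ i, (∑ x, ((f x : ℤ) : ℝ) * ((x i : ℤ) : ℝ)) / 2 ^ n ≤ C * (d : ℝ) ^ θ) →
      (∀ (n d : ℕ) (f : (Fin n → ℤˣ) → ℤˣ),
        (∀ S : Finset (Fin n), d < S.card →
          (∑ x, ((f x : ℤ) : ℝ) * ∏ i ∈ S, ((x i : ℤ) : ℝ)) / 2 ^ n = 0) →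
        ∑ i, (∑ x, ((f x : ℤ) : ℝ) * ((x i : ℤ) : ℝ)) / 2 ^ n ≤ (d : ℝ) ^ θ) ∧
      (∀ (n d : ℕ) (f : (Fin n → ℤˣ) → ℤˣ), Odd d →
        (∀ S : Finset (Fin n), d < S.card →
          (∑ x, ((f x : ℤ) : ℝ) * ∏ i ∈ S, ((x i : ℤ) : ℝ)) / 2 ^ n = 0) →
        ∑ i, (∑ x, ((f x : ℤ) : ℝ) * ((x i : ℤ) : ℝ)) / 2 ^ n + |(∑ x, ((f x : ℤ) : ℝ)) / 2 ^ n|
          ≤ (d : ℝ) ^ θ)) ∧
    ((∃ C : ℝ, ∀ (n d : ℕ) (f : (Fin n → ℤˣ) → ℤˣ),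
        (∀ S : Finset (Fin n), d < S.card →
          (∑ x, ((f x : ℤ) : ℝ) * ∏ i ∈ S, ((x i : ℤ) : ℝ)) / 2 ^ n = 0) →
        ∑ i, (∑ x, ((f x : ℤ) : ℝ) * ((x i : ℤ) : ℝ)) / 2 ^ n ≤ C * Real.sqrt d) →
      ∀ (n d : ℕ) (f : (Fin n → ℤˣ) → ℤˣ),
        (∀ S : Finset (Fin n), d < S.card →
          (∑ x, ((f x : ℤ) : ℝ) * ∏ i ∈ S, ((x i : ℤ) : ℝ)) / 2 ^ n = 0) →
        ∑ i, (∑ x, ((f x : ℤ) : ℝ) * ((x i : ℤ) : ℝ)) / 2 ^ n ≤ Real.sqrt d)) ∧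
    (∀ (n d : ℕ), 1 ≤ d → ∀ (f : (Fin n → ℤˣ) → ℤˣ)
      (m : ℕ) (P N : Fin m → Finset (Fin n)) (w : Fin m → ℝ),
      (∀ j, 0 ≤ w j) → (∀ j, Disjoint (P j) (N j)) → (∀ j, (P j).card + (N j).card ≤ d) →
      (∀ x, (if f x = 1 then (1:ℝ) else 0) =
        ∑ j, w j * (if ((∀ i ∈ P j, x i = 1) ∧ (∀ i ∈ N j, x i = -1)) then (1:ℝ) else 0)) →
      (∀ S : Finset (Fin n), d < S.card →
        (∑ x, ((f x : ℤ) : ℝ) * ∏ i ∈ S, ((x i : ℤ) : ℝ)) / 2 ^ n = 0) ∧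
      ∑ i, (∑ x, ((f x : ℤ) : ℝ) * ((x i : ℤ) : ℝ)) / 2 ^ n ≤ (4 / Real.exp 1) * Real.sqrt d) ∧
    (∀ (n : ℕ) (f : (Fin n → ℤˣ) → ℤˣ)
      (m : ℕ) (P N : Fin m → Finset (Fin n)) (w : Fin m → ℝ) (b : Fin m → ℤˣ),
      (∀ j, 0 ≤ w j) → (∀ j, Disjoint (P j) (N j)) →
      (∀ x : Fin n → ℤˣ,
        ∑ j, w j * (if ((∀ i ∈ P j, x i = 1) ∧ (∀ i ∈ N j, x i = -1)) then (1:ℝ) else 0) = 1) →
      (∀ j, 0 < w j → ∀ x : Fin n → ℤˣ,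
        ((∀ i ∈ P j, x i = 1) ∧ (∀ i ∈ N j, x i = -1)) → f x = b j) →
      (∑ i, (∑ x, ((f x : ℤ) : ℝ) * ((x i : ℤ) : ℝ)) / 2 ^ n) ^ 2
        ≤ ∑ j, w j * (((P j).card + (N j).card : ℕ) : ℝ) / 2 ^ ((P j).card + (N j).card) ∧
      ∀ d : ℕ, (∀ j, (P j).card + (N j).card ≤ d) →
        ∑ i, (∑ x, ((f x : ℤ) : ℝ) * ((x i : ℤ) : ℝ)) / 2 ^ n ≤ Real.sqrt d) := by
  obtain ⟨h1, h2, h3, h4, h5, h6⟩ := Vale.Agent.Results.P047.AllResults.result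
  exact ⟨h1, h2, Vale.Agent.Lib.P047.Low.majority_fails, h3,
    Vale.Agent.Lib.P047.Mono.monotone_bound, Vale.Agent.Lib.P047.Mono.monotone_small, h4, h5, h6⟩

end Vale.Agent.Results.P047.AllResultsB
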